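import Vale.Agent.P167.H542.Q.Mm
import Vale.Agent.P167.H662.L.LDefs

/-!
# P167, general `q`, block Q-LAYER: the masses of the macroscopic pieces, conditioned measures
-/

namespace Vale.Agent.P167.H760.L

open Finset MeasureTheory Filter Topology
open Vale.Agent.P167 Vale.Agent.P167.BR Vale.Agent.P167.FK
open Vale.Agent.P167.H562 (Em)
open Vale.Agent.P167.H562.GL (Nu lim_le loc_integrable)
open Vale.Agent.P167.H519 (IsLim)
open Vale.Agent.P167.H562.QM (MajA macro_UA CrossSP)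
open Vale.Agent.P167.H542.Q (int_le_of_lintN)
open Vale.Agent.P167.FKA (Loc Ind armPx_iff loc_arm ArmDec)
open Vale.Agent.P167.H662.L (Inp S_big S_mac)
open Vale.Agent.P167.H638.L (dvf cel blk bigV mass_sum sum_blk dvf_sum abs_mass_le mass_dvf_zero
  blk_ne l1_blk)
open Vale.Agent.P167.H45 (meas_locfun box_fin)

variable {P ν : Measure Cfg} {D T U : Finset (ℤ × ℤ)} {p : ℤ × ℤ} {ω ω' : Cfg} {A : Finset Ed}

/-- Functions of the pieces are local. -/
theorem loc_pcs (D : Finset (ℤ × ℤ)) (g : Finset (Finset Ed) → ℝ) :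
    Loc D (fun ω => g (pcs ω D)) := fun ω ω' h => by
  show g (pcs ω D) = g (pcs ω' D)
  rw [BR.pcs_congr h]

/-- A piece which crosses an annulus gives a primal arm. -/
theorem armPx_of_piece (hA : A ∈ pcs ω D) {x : ℤ × ℤ} {r R : ℤ} (hrR : r + 2 ≤ R) {a b : Ed}
    (ha : a ∈ A) (hb : b ∈ A) (h1 : nm (hdv a - x) ≤ r) (h2 : R ≤ nm (hdv b - x)) :
    ArmPx x (r + 1) (R - 1) ω := by
  have h := H167.arm_of_piece hA (by omega) ha hb h1 h2
  obtain ⟨s, t, h3, h4, h5, h6⟩ := h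
  rw [armPx_iff (by omega)]
  refine ⟨s, t, by rw [Int.even_iff]; exact h3, h4, h5, H166.rtg_mono ?_ h6⟩
  intro v hv
  rw [Finset.mem_coe, H167.An, Finset.mem_filter] at hv
  exact hv.2.2

/-- Decay of the primal arms, conditionally on the outside of the annulus. -/
def ArmP1 (P : Measure Cfg) (α C : ℝ) : Prop :=
  ∀ (x : ℤ × ℤ) (r R : ℤ) (B : Finset (ℤ × ℤ)) (G : Cfg → ℝ), 1 ≤ r → r ≤ R → (∀ ω, 0 ≤ G ω) →
    Loc B G → Ind (Bq x R \ Bq x r) G →
    ∫ ω, G ω * {ω | ArmPx x r R ω}.indicator 1 ω ∂P ≤ C * ((r : ℝ) / R) ^ α * ∫ ω, G ω ∂P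

theorem armP1 {Q α C : ℝ} (hP : IsLim Q P) (h : ArmDec Q α C) : ArmP1 P α C := by
  intro x r R B G hr hR hG0 hG hI
  refine lim_le hP (A := B ∪ Bq x R) (B := B) (D0 := Bq x R \ Bq x r)
    (H562.GL.Loc.mul (H562.GL.Loc.mono Finset.subset_union_left hG)
      (H562.GL.Loc.mono Finset.subset_union_right (loc_arm x r R))) hG fun D hD => ?_
  exact h x r R D eta0 G hr hR f_good.2.1 hD hG0 hI

/-- The arm decay for conditioned measures. -/
theorem arm_nu {α C : ℝ} (hArm : ArmP1 P α C) (hν : Nu P ν U) {x : ℤ × ℤ} {r R : ℤ} (hr : 1 ≤ r) (hrR : r ≤ R) (hU : Bq x R ⊆ U) :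
    ∫ ω, {ω | ArmPx x r R ω}.indicator 1 ω ∂ν ≤ C * ((r : ℝ) / R) ^ α := by
  obtain ⟨G, B, h0, hL, hI, hp, h1⟩ := hν.ex
  rw [h1 _ _ (loc_arm x r R), div_le_iff₀ hp]
  exact hArm x r R B G hr hrR h0 hL (Ind.mono (Finset.sdiff_subset.trans hU) hI)

open Classical in
/-- The pieces which visit the part of `T` in the cell `b` and which are not small. -/
noncomputable def BgT (D T : Finset (ℤ × ℤ)) (h : ℤ) (b : ℤ × ℤ) (d : ℝ) (ω : Cfg) :
    Finset (Finset Ed) :=
  (pcs ω D).filter fun A => (∃ e ∈ A, hdv e ∈ T ∧ ((hdv e).1 / h, (hdv e).2 / h) = b) ∧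
    ¬ Small d A

theorem loc_BgT (D T : Finset (ℤ × ℤ)) (h : ℤ) (b : ℤ × ℤ) (d : ℝ) (g : ℕ → ℝ) :
    Loc D (fun ω => g (BgT D T h b d ω).card) := by
  classical
  exact loc_pcs D fun s => g (s.filter fun A => (∃ e ∈ A, hdv e ∈ T ∧
    ((hdv e).1 / h, (hdv e).2 / h) = b) ∧ ¬ Small d A).card

/-- The second moment of the number of the big pieces of a cell. -/
theorem sq_BgT (hX : CrossSP P) : ∃ C d0 : ℝ, 0 < C ∧ 0 < d0 ∧ ∀ (D T U : Finset (ℤ × ℤ))
    (h : ℤ) (b : ℤ × ℤ) (d : ℝ) (ν : Measure Cfg), 1 ≤ h → (h : ℝ) ≤ d → d0 ≤ d →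
    (∀ u ∈ T, ∀ v : ℤ × ℤ, (nm (v - u) : ℝ) ≤ d → v ∈ U) → Nu P ν U →
    ∫ ω, ((BgT D T h b d ω).card : ℝ) ^ 2 ∂ν ≤ C := by
  classical
  obtain ⟨ε, C, ρ0, hε, hC, hρ0, H⟩ := macro_UA hX 1 2 1 0 one_pos (by norm_num)
  refine ⟨2 * C, ρ0, by positivity, hρ0, fun D T U h b d ν hh hhd hd hU hν => ?_⟩
  have hνp : IsProbabilityMeasure ν := hν.prob
  have hd0 : 0 < d := by linarith
  set A : Finset (ℤ × ℤ) := T.filter fun v => (v.1 / h, v.2 / h) = b with hA
  have hAb : ∀ v ∈ A, (nm (v - (h * b.1, h * b.2)) : ℝ) ≤ 2 * d := by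
    intro v hv
    have h1 := (H638.L.cell_iff hh).1 (Finset.mem_filter.1 hv).2
    have h2 : nm (v - (h * b.1, h * b.2)) ≤ h := by
      rw [H45.nm_le]
      simp only [Prod.fst_sub, Prod.snd_sub, abs_le]
      refine ⟨⟨?_, ?_⟩, ?_, ?_⟩ <;> linarith [h1.1.1, h1.1.2, h1.2.1, h1.2.2]
    have h3 : (nm (v - (h * b.1, h * b.2)) : ℝ) ≤ h := by exact_mod_cast h2
    linarith
  obtain ⟨N, hN1, hN2, hN3⟩ := H d hd (h * b.1, h * b.2) A hAb (fun i => i.elim0)
  have hle : ∀ ω, (BgT D T h b d ω).card ≤ N ω := by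
    intro ω
    refine hN2 ω _ (fun γ hγ => H542.isSeg_piece (Finset.mem_filter.1 hγ).1) ?_ ?_
    · intro γ hγ γ' hγ' hne
      rw [Finset.disjoint_left]
      intro e he he'
      exact hne (eq_of_mem_pcs (Finset.mem_filter.1 hγ).1 (Finset.mem_filter.1 hγ').1 he he')
    · intro γ hγ
      obtain ⟨-, ⟨e, he, h3, h4⟩, h2⟩ := Finset.mem_filter.1 hγ
      refine ⟨⟨e, he, Finset.mem_filter.2 ⟨h3, h4⟩⟩, ?_⟩
      unfold Small at h2
      push Not at h2
      obtain ⟨u, hu, v, hv, h4⟩ := h2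
      obtain ⟨e1, he1, rfl⟩ := Finset.mem_image.1 hu
      obtain ⟨e2, he2, rfl⟩ := Finset.mem_image.1 hv
      exact ⟨e1, he1, e2, he2, by rwa [one_mul]⟩
  have hEm := hN3 U ν (fun u hu v hv => hU u (Finset.mem_filter.1 hu).1 v (by
    rwa [one_mul] at hv)) hν
  refine int_le_of_lintN (fun ω => by positivity)
    (meas_locfun D (loc_BgT D T h b d fun n => (n : ℝ) ^ 2)) (by positivity) ?_
  calc ∫⁻ ω, ENNReal.ofReal (((BgT D T h b d ω).card : ℝ) ^ 2) ∂ν
      ≤ ∫⁻ ω, ENNReal.ofReal 2 * ENNReal.ofReal (Real.exp (1 * (N ω : ℝ))) ∂ν := by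
        refine lintegral_mono fun ω => ?_
        rw [← ENNReal.ofReal_mul (by norm_num)]
        refine ENNReal.ofReal_le_ofReal ?_
        have h1 : ((BgT D T h b d ω).card : ℝ) ≤ N ω := by exact_mod_cast hle ω
        have h2 : ((BgT D T h b d ω).card : ℝ) ^ 2 ≤ (N ω : ℝ) ^ 2 :=
          pow_le_pow_left₀ (by positivity) h1 2
        refine h2.trans ?_
        rw [one_mul]
        exact H562.sq_le_two_exp (by positivity)
    _ = ENNReal.ofReal 2 * Em ν (fun ω => 1 * (N ω : ℝ)) := by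
        rw [lintegral_const_mul' _ _ ENNReal.ofReal_ne_top]
        rfl
    _ ≤ ENNReal.ofReal 2 * ENNReal.ofReal C := by gcongr
    _ = ENNReal.ofReal (2 * C) := by rw [ENNReal.ofReal_mul (by norm_num)]

/-- The base point of a cell. -/
theorem near_cell {h : ℤ} (hh : 1 ≤ h) {v b : ℤ × ℤ} (hv : (v.1 / h, v.2 / h) = b) :
    nm (v - (h * b.1, h * b.2)) ≤ h := by
  have h1 := (H638.L.cell_iff hh).1 hv
  rw [H45.nm_le]
  simp only [Prod.fst_sub, Prod.snd_sub, abs_le]
  refine ⟨⟨?_, ?_⟩, ?_, ?_⟩ <;> linarith [h1.1.1, h1.1.2, h1.2.1, h1.2.2]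

/-- **The mean number of the big pieces of a cell.** -/
theorem mean_BgT (hX : CrossSP P) {α Ca : ℝ} (hα : 0 < α) (hCa : 0 < Ca)
    (harm : ArmP1 P α Ca) : ∃ C α d0 : ℝ, 0 < C ∧ 0 < α ∧ 0 < d0 ∧
    ∀ (D T U : Finset (ℤ × ℤ)) (h : ℤ) (b : ℤ × ℤ) (d : ℝ) (ν : Measure Cfg), 1 ≤ h →
    (h : ℝ) ≤ d → d0 ≤ d → (∀ u ∈ T, ∀ v : ℤ × ℤ, (nm (v - u) : ℝ) ≤ 2 * d → v ∈ U) →
    Nu P ν U → ∫ ω, ((BgT D T h b d ω).card : ℝ) ∂ν ≤ C * ((h : ℝ) / d) ^ α := by
  classical
  obtain ⟨C2, d1, hC2, hd1, hsq⟩ := sq_BgT hX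
  set K : ℝ := √(Ca * 8 ^ α) with hK
  have hK0 : 0 < K := Real.sqrt_pos.2 (by positivity)
  refine ⟨(C2 + 1) * (K + 2 ^ α), α / 2, max d1 8, by positivity, by positivity, by positivity,
    fun D T U h b d ν hh hhd hd hU hν => ?_⟩
  have hνp : IsProbabilityMeasure ν := hν.prob
  have hd1' : d1 ≤ d := (le_max_left _ _).trans hd
  have hd8 : 8 ≤ d := (le_max_right _ _).trans hd
  have hd0 : 0 < d := by linarith
  have hh1 : (1 : ℝ) ≤ h := by exact_mod_cast hh
  have hq : (0 : ℝ) < (h : ℝ) / d := by positivity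
  have hqa : (0 : ℝ) < ((h : ℝ) / d) ^ (α / 2) := by positivity
  have h2 := hsq D T U h b d ν hh hhd hd1' (fun u hu v hv => hU u hu v (by linarith)) hν
  have hi1 : Integrable (fun ω => ((BgT D T h b d ω).card : ℝ)) ν :=
    loc_integrable (loc_BgT D T h b d fun n => (n : ℝ))
  have hi2 : Integrable (fun ω => ((BgT D T h b d ω).card : ℝ) ^ 2) ν :=
    loc_integrable (loc_BgT D T h b d fun n => (n : ℝ) ^ 2)
  set x : ℤ × ℤ := (h * b.1, h * b.2) with hx
  set R : ℤ := ⌈d / 2⌉ with hR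
  have hRR : d / 2 ≤ R := Int.le_ceil _
  by_cases hlt : h + 2 ≤ R
  · by_cases hT : ∃ u ∈ T, (u.1 / h, u.2 / h) = b
    · obtain ⟨u, hu, hub⟩ := hT
      have hux := near_cell hh hub
      rw [← hx] at hux
      have hRd : ((R - 1 : ℤ) : ℝ) ≤ d / 2 := by
        have := Int.ceil_lt_add_one (d / 2)
        push_cast
        linarith
      have hR1 : d / 4 ≤ ((R - 1 : ℤ) : ℝ) := by
        push_cast
        linarith
      have hBU : Bq x (R - 1) ⊆ U := by
        intro v hv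
        have h3 : nm (v - x) ≤ R - 1 := by
          simp only [Bq, Finset.mem_product, Finset.mem_Ico] at hv
          rw [H45.nm_le]
          simp only [Prod.fst_sub, Prod.snd_sub, abs_le]
          omega
        refine hU u hu v ?_
        have h4 : nm (v - u) ≤ nm (v - x) + nm (x - u) := by
          simpa using H45.nm_add_le (v - x) (x - u)
        rw [H45.nm_sub_comm x u] at h4
        have h5 : (nm (v - u) : ℝ) ≤ ((R - 1 : ℤ) : ℝ) + h := by
          exact_mod_cast h4.trans (add_le_add h3 hux)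
        linarith
      have hp := arm_nu harm hν (x := x) (r := h + 1) (R := R - 1) (by omega) (by omega) hBU
      set pr : ℝ := Ca * 8 ^ α * ((h : ℝ) / d) ^ α with hpr
      have hpr0 : 0 < pr := by positivity
      have hp' : ∫ ω, {ω | ArmPx x (h + 1) (R - 1) ω}.indicator 1 ω ∂ν ≤ pr := by
        refine hp.trans ?_
        rw [hpr, mul_assoc]
        refine mul_le_mul_of_nonneg_left ?_ hCa.le
        rw [← Real.mul_rpow (by norm_num) hq.le]
        have hR1' : (0 : ℝ) < ((R - 1 : ℤ) : ℝ) := by linarith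
        refine Real.rpow_le_rpow (by positivity) ?_ hα.le
        rw [div_le_iff₀ hR1']
        push_cast
        push_cast at hR1
        have h6 : 8 * ((h : ℝ) / d) * (d / 4) = 2 * h := by field_simp; norm_num
        calc (h : ℝ) + 1 ≤ 2 * h := by linarith
          _ = 8 * ((h : ℝ) / d) * (d / 4) := h6.symm
          _ ≤ _ := mul_le_mul_of_nonneg_left hR1 (by positivity)
      have hsq : √pr = K * ((h : ℝ) / d) ^ (α / 2) := by
        rw [hpr, Real.sqrt_mul (by positivity), ← hK]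
        congr 1
        rw [Real.sqrt_eq_rpow, ← Real.rpow_mul hq.le]
        congr 1
        ring
      have hs0 : 0 < √pr := Real.sqrt_pos.2 hpr0
      have hss : √pr * √pr = pr := Real.mul_self_sqrt hpr0.le
      have hia : Integrable ({ω | ArmPx x (h + 1) (R - 1) ω}.indicator (1 : Cfg → ℝ)) ν :=
        loc_integrable (loc_arm x (h + 1) (R - 1))
      have hpt : ∀ ω, ((BgT D T h b d ω).card : ℝ) ≤
          √pr / 2 * ((BgT D T h b d ω).card : ℝ) ^ 2 +
            1 / (2 * √pr) * {ω | ArmPx x (h + 1) (R - 1) ω}.indicator 1 ω := by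
        intro ω
        by_cases hω : ω ∈ {ω | ArmPx x (h + 1) (R - 1) ω}
        · rw [Set.indicator_of_mem hω, Pi.one_apply, mul_one]
          generalize ((BgT D T h b d ω).card : ℝ) = y
          have h7 : 0 ≤ (√pr * y - 1) ^ 2 := sq_nonneg _
          have h8 : √pr / 2 * y ^ 2 + 1 / (2 * √pr) - y = (√pr * y - 1) ^ 2 / (2 * √pr) := by
            field_simp
            ring
          have h9 : 0 ≤ (√pr * y - 1) ^ 2 / (2 * √pr) := by positivity
          linarith
        · have h0 : BgT D T h b d ω = ∅ := by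
            rw [Finset.eq_empty_iff_forall_notMem]
            intro A hA
            obtain ⟨h5, ⟨e, he, h6, h7⟩, h8⟩ := Finset.mem_filter.1 hA
            obtain ⟨c, hc, h9⟩ := H167.exists_far_head h8 x
            exact hω (armPx_of_piece h5 hlt he hc (near_cell hh h7) (Int.ceil_le.2 h9))
          rw [h0, Set.indicator_of_notMem hω]
          simp
      calc ∫ ω, ((BgT D T h b d ω).card : ℝ) ∂ν
          ≤ ∫ ω, (√pr / 2 * ((BgT D T h b d ω).card : ℝ) ^ 2 +
            1 / (2 * √pr) * {ω | ArmPx x (h + 1) (R - 1) ω}.indicator 1 ω) ∂ν :=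
            integral_mono hi1 ((hi2.const_mul _).add (hia.const_mul _)) hpt
        _ = √pr / 2 * ∫ ω, ((BgT D T h b d ω).card : ℝ) ^ 2 ∂ν +
            1 / (2 * √pr) * ∫ ω, {ω | ArmPx x (h + 1) (R - 1) ω}.indicator 1 ω ∂ν := by
            rw [integral_add (hi2.const_mul _) (hia.const_mul _), integral_const_mul,
              integral_const_mul]
        _ ≤ √pr / 2 * C2 + 1 / (2 * √pr) * pr := by gcongr
        _ = √pr * ((C2 + 1) / 2) := by
            have e : 1 / (2 * √pr) * pr = √pr / 2 := by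
              rw [one_div, inv_mul_eq_iff_eq_mul₀ (by positivity)]
              linarith
            rw [e]
            ring
        _ = K * ((h : ℝ) / d) ^ (α / 2) * ((C2 + 1) / 2) := by rw [hsq]
        _ ≤ _ := by
            have h10 : 0 < (2 : ℝ) ^ α := by positivity
            have h11 : K * ((C2 + 1) / 2) ≤ (C2 + 1) * (K + 2 ^ α) := by nlinarith
            calc K * ((h : ℝ) / d) ^ (α / 2) * ((C2 + 1) / 2) =
                K * ((C2 + 1) / 2) * ((h : ℝ) / d) ^ (α / 2) := by ring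
              _ ≤ _ := mul_le_mul_of_nonneg_right h11 hqa.le
    · have h0 : ∀ ω, BgT D T h b d ω = ∅ := by
        intro ω
        rw [Finset.eq_empty_iff_forall_notMem]
        intro A hA
        obtain ⟨h5, ⟨e, he, h6, h7⟩, h8⟩ := Finset.mem_filter.1 hA
        exact hT ⟨_, h6, h7⟩
      simp only [h0, Finset.card_empty, Nat.cast_zero, integral_zero]
      positivity
  · -- comparable scales
    have h3 : (R : ℝ) < h + 2 := by exact_mod_cast not_le.1 hlt
    have h4 : (1 : ℝ) / 4 ≤ (h : ℝ) / d := by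
      rw [div_le_div_iff₀ (by norm_num) hd0]
      linarith
    have h5 : 1 ≤ 2 ^ α * ((h : ℝ) / d) ^ (α / 2) := by
      have e : (2 : ℝ) ^ α = 4 ^ (α / 2) := by
        rw [show (4 : ℝ) = 2 ^ (2 : ℝ) by norm_num, ← Real.rpow_mul (by norm_num)]
        congr 1
        ring
      rw [e, ← Real.mul_rpow (by norm_num) hq.le]
      exact Real.one_le_rpow (by linarith) (by positivity)
    have h6 : ∫ ω, ((BgT D T h b d ω).card : ℝ) ∂ν ≤ C2 + 1 := by
      calc ∫ ω, ((BgT D T h b d ω).card : ℝ) ∂ν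
          ≤ ∫ ω, (((BgT D T h b d ω).card : ℝ) ^ 2 + 1) ∂ν := by
            refine integral_mono hi1 (hi2.add (integrable_const _)) fun ω => ?_
            simp only
            nlinarith [sq_nonneg (((BgT D T h b d ω).card : ℝ) - 1)]
        _ = ∫ ω, ((BgT D T h b d ω).card : ℝ) ^ 2 ∂ν + 1 := by
            rw [integral_add hi2 (integrable_const _)]
            simp
        _ ≤ _ := by linarith
    calc ∫ ω, ((BgT D T h b d ω).card : ℝ) ∂ν ≤ C2 + 1 := h6
      _ ≤ (C2 + 1) * (2 ^ α * ((h : ℝ) / d) ^ (α / 2)) := by nlinarith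
      _ ≤ _ := by
          have h7 : (2 : ℝ) ^ α ≤ K + 2 ^ α := by linarith
          calc (C2 + 1) * (2 ^ α * ((h : ℝ) / d) ^ (α / 2)) =
              (C2 + 1) * 2 ^ α * ((h : ℝ) / d) ^ (α / 2) := by ring
            _ ≤ _ := by gcongr

/-- The number of the big pieces of a cell is at most the number of the edges. -/
theorem card_BgT {h : ℤ} (hh : 1 ≤ h) (b : ℤ × ℤ) (d : ℝ) (ω : Cfg) :
    ((BgT D T h b d ω).card : ℝ) ≤ 18 * (h : ℝ) ^ 2 := by
  classical
  set B : Finset (ℤ × ℤ) := Finset.Ico (h * b.1 - 1) (h * b.1 + h + 1) ×ˢ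
    Finset.Ico (h * b.2 - 1) (h * b.2 + h + 1) with hB
  set E : Finset Ed := B.image Sum.inl ∪ B.image Sum.inr with hE
  have hBc : (B.card : ℤ) = (h + 2) ^ 2 := by
    rw [hB, Finset.card_product, Int.card_Ico, Int.card_Ico]
    have e1 : h * b.1 + h + 1 - (h * b.1 - 1) = h + 2 := by ring
    have e2 : h * b.2 + h + 1 - (h * b.2 - 1) = h + 2 := by ring
    rw [e1, e2]
    push_cast
    rw [Int.toNat_of_nonneg (by linarith)]
    ring
  have hEc : (E.card : ℤ) ≤ 18 * h ^ 2 := by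
    have h1 : E.card ≤ B.card + B.card := (Finset.card_union_le _ _).trans
      (add_le_add Finset.card_image_le Finset.card_image_le)
    have h2 : (E.card : ℤ) ≤ B.card + B.card := by exact_mod_cast h1
    rw [hBc] at h2
    nlinarith
  have hmem : ∀ e : Ed, ((hdv e).1 / h, (hdv e).2 / h) = b → e ∈ E := by
    intro e he
    have h1 := (H638.L.cell_iff hh).1 he
    rw [hE, Finset.mem_union, Finset.mem_image, Finset.mem_image]
    rcases e with v | v
    · refine Or.inl ⟨v, ?_, rfl⟩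
      rw [hB, Finset.mem_product, Finset.mem_Ico, Finset.mem_Ico]
      by_cases h2 : Even (v.1 + v.2) <;> simp only [hdv, h2, if_true, if_false] at h1 <;> omega
    · refine Or.inr ⟨v, ?_, rfl⟩
      rw [hB, Finset.mem_product, Finset.mem_Ico, Finset.mem_Ico]
      by_cases h2 : Even (v.1 + v.2) <;> simp only [hdv, h2, if_true, if_false] at h1 <;> omega
  have hcard : (BgT D T h b d ω).card ≤ E.card := by
    have hex : ∀ A ∈ BgT D T h b d ω, ∃ e, e ∈ A ∧ e ∈ E := by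
      intro A hA
      obtain ⟨-, ⟨e, he, -, h2⟩, -⟩ := Finset.mem_filter.1 hA
      exact ⟨e, he, hmem e h2⟩
    choose! φ hφ1 hφ2 using hex
    refine Finset.card_le_card_of_injOn φ (fun A hA => hφ2 A hA) ?_
    intro A hA A' hA' he
    have h1 := (Finset.mem_filter.1 hA).1
    have h2 := (Finset.mem_filter.1 hA').1
    refine eq_of_mem_pcs h1 h2 (hφ1 A hA) ?_
    have := hφ1 A' hA'
    rwa [← he] at this
  have h1 : ((BgT D T h b d ω).card : ℤ) ≤ 18 * h ^ 2 :=
    le_trans (by exact_mod_cast hcard) hEc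
  exact_mod_cast h1

/-- The mean number of the big pieces of a cell, all scales. -/
theorem mean_BgT' (hX : CrossSP P) {α Ca : ℝ} (hα : 0 < α) (hCa : 0 < Ca)
    (harm : ArmP1 P α Ca) : ∃ C α : ℝ, 0 < C ∧ 0 < α ∧
    ∀ (D T U : Finset (ℤ × ℤ)) (h : ℤ) (b : ℤ × ℤ) (d : ℝ) (ν : Measure Cfg), 1 ≤ h →
    (h : ℝ) ≤ d → (∀ u ∈ T, ∀ v : ℤ × ℤ, (nm (v - u) : ℝ) ≤ 2 * d → v ∈ U) →
    Nu P ν U → ∫ ω, ((BgT D T h b d ω).card : ℝ) ∂ν ≤ C * ((h : ℝ) / d) ^ α := by
  obtain ⟨C, β, d0, hC, hβ, hd0, H⟩ := mean_BgT hX hα hCa harm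
  refine ⟨C + 18 * d0 ^ 2 * d0 ^ β, β, by positivity, hβ, fun D T U h b d ν hh hhd hU hν => ?_⟩
  have hνp : IsProbabilityMeasure ν := hν.prob
  have hh1 : (1 : ℝ) ≤ h := by exact_mod_cast hh
  have hdp : 0 < d := by linarith
  have hq : (0 : ℝ) < ((h : ℝ) / d) ^ β := by positivity
  rcases le_total d0 d with hd | hd
  · refine (H D T U h b d ν hh hhd hd hU hν).trans (mul_le_mul_of_nonneg_right ?_ hq.le)
    have : 0 < 18 * d0 ^ 2 * d0 ^ β := by positivity
    linarith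
  · have h1 : ∫ ω, ((BgT D T h b d ω).card : ℝ) ∂ν ≤ 18 * d0 ^ 2 := by
      calc ∫ ω, ((BgT D T h b d ω).card : ℝ) ∂ν ≤ ∫ _ω, 18 * d0 ^ 2 ∂ν := by
            refine integral_mono (loc_integrable (loc_BgT D T h b d fun n => (n : ℝ)))
              (integrable_const _) fun ω => ?_
            refine (card_BgT hh b d ω).trans ?_
            have : (h : ℝ) ≤ d0 := hhd.trans hd
            gcongr
        _ = _ := by simp
    have h2 : 1 ≤ d0 ^ β * ((h : ℝ) / d) ^ β := by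
      rw [← Real.mul_rpow hd0.le (by positivity)]
      refine Real.one_le_rpow ?_ hβ.le
      rw [mul_div_assoc', le_div_iff₀ hdp, one_mul]
      nlinarith
    calc _ ≤ 18 * d0 ^ 2 * 1 := by rw [mul_one]; exact h1
      _ ≤ 18 * d0 ^ 2 * (d0 ^ β * ((h : ℝ) / d) ^ β) :=
          mul_le_mul_of_nonneg_left h2 (by positivity)
      _ = 18 * d0 ^ 2 * d0 ^ β * ((h : ℝ) / d) ^ β := by ring
      _ ≤ _ := mul_le_mul_of_nonneg_right (by linarith) hq.le

/-- The decomposition of the mass into blocks. -/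
theorem mass_blkT {c : Ed → ℝ} (hc : ∀ e, c e ≠ 0 → e ∈ eds D) (hT : ∀ e, c e ≠ 0 → hdv e ∈ T)
    (hA : A ⊆ eds D) (h : ℤ) :
    |mass D p (dvf c) A| ≤ ∑ b ∈ cel T h, (∑ z ∈ sites D, |dvf (blk c h b) z|) *
      (open Classical in
        if ∃ e ∈ A, hdv e ∈ T ∧ ((hdv e).1 / h, (hdv e).2 / h) = b then 1 else 0) := by
  classical
  have h1 : mass D p (dvf c) A = ∑ b ∈ cel T h, mass D p (dvf (blk c h b)) A := by
    rw [← mass_sum]
    congr 1
    funext z
    rw [← dvf_sum, sum_blk hT]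
  rw [h1]
  refine (Finset.abs_sum_le_sum_abs _ _).trans (Finset.sum_le_sum fun b _ => ?_)
  split_ifs with hb
  · rw [mul_one]; exact abs_mass_le _
  · rw [mul_zero, mass_dvf_zero (fun e he => hc e (blk_ne he).1) hA, abs_zero]
    intro e he
    by_contra hcon
    exact hb ⟨e, he, hT e (blk_ne hcon).1, (blk_ne hcon).2⟩

/-- **(L-BIG)** -/
theorem l_big {q al Ca : ℝ} (hI : Inp q al Ca P) : S_big P := by
  classical
  obtain ⟨C, α, hC, hα, hbig⟩ := mean_BgT' hI.crsS hI.al0 hI.Ca0 (armP1 hI.lim hI.arm)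
  refine ⟨32 * C, α, by positivity, hα, fun D T p c h d m1 m2 ν hh hd hcD hcT hm1 hm2 hTD hν => ?_⟩
  have hνp : IsProbabilityMeasure ν := hν.prob
  have hh1 : (1 : ℝ) ≤ h := by exact_mod_cast hh
  have hm10 : 0 ≤ m1 := (abs_nonneg _).trans (hm1 (Sum.inl (0, 0)))
  have hm20 : 0 ≤ m2 := (abs_nonneg _).trans (hm2 0)
  set Lb : ℝ := (h + 1) ^ 2 * m2 + 16 * (h + 1) * m1 with hLb
  have hLb0 : 0 ≤ Lb := by positivity
  have hi : ∀ b : ℤ × ℤ, Integrable (fun ω => ((BgT D T h b d ω).card : ℝ)) ν := fun b =>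
    loc_integrable (loc_BgT D T h b d fun n => (n : ℝ))
  have hloc : Loc D (bigV D p (dvf c) d) := by
    intro ω ω' hw
    unfold bigV
    rw [BR.pcs_congr hw]
  have hpt : ∀ ω, bigV D p (dvf c) d ω ≤
      ∑ b ∈ cel T h, Lb * ((BgT D T h b d ω).card : ℝ) := by
    intro ω
    unfold bigV
    calc ∑ A ∈ (pcs ω D).filter (fun A => ¬ Small d A), |mass D p (dvf c) A|
        ≤ ∑ A ∈ (pcs ω D).filter (fun A => ¬ Small d A), ∑ b ∈ cel T h,
            Lb * (if ∃ e ∈ A, hdv e ∈ T ∧ ((hdv e).1 / h, (hdv e).2 / h) = b then 1 else 0) := by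
          refine Finset.sum_le_sum fun A hA => ?_
          have h1 := mass_blkT (p := p) hcD hcT (subset_eds (Finset.mem_filter.1 hA).1) h
          refine h1.trans (Finset.sum_le_sum fun b _ => ?_)
          refine mul_le_mul ?_ (le_of_eq ?_) ?_ hLb0
          · exact l1_blk hh b hm1 hm2
          · congr
          · split_ifs <;> norm_num
      _ = ∑ b ∈ cel T h, Lb * (((((pcs ω D).filter (fun A => ¬ Small d A)).filter
            (fun A => ∃ e ∈ A, hdv e ∈ T ∧ ((hdv e).1 / h, (hdv e).2 / h) = b)).card : ℕ) :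
              ℝ) := by
          rw [Finset.sum_comm]
          refine Finset.sum_congr rfl fun b _ => ?_
          rw [← Finset.mul_sum, Finset.sum_boole]
      _ ≤ _ := by
          refine Finset.sum_le_sum fun b _ => mul_le_mul_of_nonneg_left ?_ hLb0
          have : (((pcs ω D).filter (fun A => ¬ Small d A)).filter
              (fun A => ∃ e ∈ A, hdv e ∈ T ∧ ((hdv e).1 / h, (hdv e).2 / h) = b)).card ≤
              (BgT D T h b d ω).card := by
            refine Finset.card_le_card fun A hA => ?_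
            obtain ⟨h1, h2⟩ := Finset.mem_filter.1 hA
            obtain ⟨h3, h4⟩ := Finset.mem_filter.1 h1
            exact Finset.mem_filter.2 ⟨h3, h2, h4⟩
          exact_mod_cast this
  calc ∫ ω, bigV D p (dvf c) d ω ∂ν
      ≤ ∫ ω, ∑ b ∈ cel T h, Lb * ((BgT D T h b d ω).card : ℝ) ∂ν :=
        integral_mono (loc_integrable hloc)
          (integrable_finsetSum _ fun b _ => (hi b).const_mul _) hpt
    _ = ∑ b ∈ cel T h, Lb * ∫ ω, ((BgT D T h b d ω).card : ℝ) ∂ν := by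
        rw [integral_finsetSum _ fun b _ => (hi b).const_mul _]
        exact Finset.sum_congr rfl fun b _ => integral_const_mul _ _
    _ ≤ ∑ _b ∈ cel T h, Lb * (C * ((h : ℝ) / d) ^ α) :=
        Finset.sum_le_sum fun b _ => mul_le_mul_of_nonneg_left
          (hbig D T D h b d ν hh hd (fun u hu v hv => hTD u hu v (by linarith)) hν) hLb0
    _ = ((cel T h).card : ℝ) * (Lb * (C * ((h : ℝ) / d) ^ α)) := by
        rw [Finset.sum_const, nsmul_eq_mul]
    _ ≤ ((cel T h).card : ℝ) * ((32 * (h ^ 2 * m2 + h * m1)) * (C * ((h : ℝ) / d) ^ α)) := by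
        have hp : 0 ≤ C * ((h : ℝ) / d) ^ α := by
          have : 0 < d := by linarith
          positivity
        refine mul_le_mul_of_nonneg_left (mul_le_mul_of_nonneg_right ?_ hp) (by positivity)
        rw [hLb]
        have h3 : ((h : ℝ) + 1) ^ 2 ≤ 4 * h ^ 2 := by nlinarith
        have h4 : ((h : ℝ) + 1) ≤ 2 * h := by linarith
        have h5 : ((h : ℝ) + 1) ^ 2 * m2 ≤ 4 * h ^ 2 * m2 := mul_le_mul_of_nonneg_right h3 hm20
        have h6 : 16 * ((h : ℝ) + 1) * m1 ≤ 16 * (2 * h) * m1 := by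
          refine mul_le_mul_of_nonneg_right ?_ hm10
          linarith
        have h7 : 0 ≤ (h : ℝ) ^ 2 * m2 := by positivity
        nlinarith
    _ = _ := by ring

/-- **(L-MAC)** -/
theorem l_mac {q al Ca : ℝ} (hI : Inp q al Ca P) : S_mac P := by
  classical
  intro κ R M hκ hR hM
  obtain ⟨ε, C, ρ0, hε, hC, hρ0, H⟩ := macro_UA hI.crsS κ R (Real.log M) 0 hκ hR
  refine ⟨C, ρ0, hC, hρ0, fun n hn D p K δ ν hG hδ hD hν => ?_⟩
  have hνp : IsProbabilityMeasure ν := hν.prob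
  have hn0 : 0 < n := by linarith
  have hκn : 0 < κ * n := by positivity
  set A : Finset (ℤ × ℤ) := D.filter fun v => ∃ z ∈ K, nm (v - z) ≤ 1 with hA
  have hA1 : ∀ z ∈ K, ∀ v, nm (v - z) ≤ 1 → v ∈ A := by
    intro z hz v hv
    have h1 : (nm (v - z) : ℝ) ≤ 1 := by exact_mod_cast hv
    exact Finset.mem_filter.2 ⟨hG.nbhd z hz v (by linarith), z, hz, hv⟩
  obtain ⟨N, hN1, hN2, hN3⟩ := H n hn 0 A (fun v hv => by
    rw [sub_zero]
    exact hD v (Finset.mem_filter.1 hv).1) (fun i => i.elim0)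
  have hEm := hN3 D ν (fun u hu v hv => by
    obtain ⟨-, z, hz, hzu⟩ := Finset.mem_filter.1 hu
    refine hG.nbhd z hz v ?_
    have h5 : nm (v - z) ≤ nm (v - u) + nm (u - z) := by
      simpa using H45.nm_add_le (v - u) (u - z)
    have h6 : (nm (v - z) : ℝ) ≤ nm (v - u) + 1 := by exact_mod_cast h5.trans (by linarith)
    linarith) hν
  have hle : ∀ ω, (H542.Q.mak K (κ * n) D ω).card ≤ N ω := fun ω =>
    H542.Q.card_mak_le hA1 (hN2 ω)
  refine int_le_of_lintN (fun ω => by positivity) (meas_locfun D fun ω ω' hw => by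
    rw [H542.Q.mak_loc K (κ * n) D hw]) hC.le (le_trans (lintegral_mono fun ω => ?_) hEm)
  refine ENNReal.ofReal_le_ofReal ?_
  have hM0 : 0 < M := by linarith
  calc M ^ (H542.Q.mak K (κ * n) D ω).card ≤ M ^ N ω := pow_le_pow_right₀ hM (hle ω)
    _ = Real.exp (Real.log M * N ω) := by
        rw [mul_comm, Real.exp_nat_mul, Real.exp_log hM0]

end Vale.Agent.P167.H760.L
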